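import Vale.Agent.P267.H585.Inst

/-!
# P267, GX-FRAME (helper585): rates, and the recursion theorem on the infinite cyclic covering

* `DSys.psi_sig` : functional equation of the series.
* `frames` : `Rec.lean` applied to `sysD D R`; hypotheses and conclusions about functions on `M`.
-/

set_option linter.unusedVariables false

open scoped Manifold ContDiff ComplexConjugate Matrix Topology
open Set Filter Metric

noncomputable section

namespace Vale.Agent.P267.H585

namespace DSys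

variable {M F : Type*} [AddCommGroup F] [Module ℂ F] (S : DSys M F)
variable {ι : Type*} [Fintype ι] [DecidableEq ι] {U : ι → M → ℂ} {Mm Nn : Matrix ι ι ℂ}

/-- functional equation of the series -/
theorem psi_sig (hNM : Nn * Mm = 1) {R B : ℕ → ℝ} (hR : ∀ k i j, ‖(Nn ^ (k + 1)) i j‖ ≤ R k)
    {x : M} (hB : ∀ j k, ‖U j (S.sig^[k] x)‖ ≤ B k) (hs : Summable fun k => R k * B k) (i : ι) :
    S.psi Nn U i (S.sig x) = ∑ j, Mm i j * S.psi Nn U j x + U i x := by
  have hMN : Mm * Nn = 1 := mul_eq_one_comm.1 hNM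
  have hsum := fun j => S.summable_psi hR hB hs j
  have h1 : ∑ j, Mm i j * S.psi Nn U j x =
      -∑' m : ℕ, ∑ j, (Nn ^ m) i j * U j (S.sig^[m] x) := by
    have h2 : ∀ j, Mm i j * S.psi Nn U j x =
        -∑' m : ℕ, Mm i j * ∑ l, (Nn ^ (m + 1)) j l * U l (S.sig^[m] x) := by
      intro j
      rw [psi, mul_neg, tsum_mul_left]
    rw [Finset.sum_congr rfl fun j _ => h2 j, Finset.sum_neg_distrib,
      ← Summable.tsum_finsetSum fun j _ => (hsum j).mul_left _]
    congr 1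
    refine tsum_congr fun m => ?_
    simp only [Finset.mul_sum]
    rw [Finset.sum_comm]
    refine Finset.sum_congr rfl fun l _ => ?_
    have h3 : (Mm * Nn ^ (m + 1)) i l = (Nn ^ m) i l := by
      rw [pow_succ', ← Matrix.mul_assoc, hMN, Matrix.one_mul]
    rw [← h3, Matrix.mul_apply, Finset.sum_mul]
    exact Finset.sum_congr rfl fun j _ => by ring
  have h4 : Summable fun m : ℕ => ∑ j, (Nn ^ m) i j * U j (S.sig^[m] x) := by
    have h5 : Summable fun m : ℕ => ∑ j, Mm i j * ∑ l, (Nn ^ (m + 1)) j l * U l (S.sig^[m] x) :=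
      summable_sum fun j _ => (hsum j).mul_left _
    refine h5.congr fun m => ?_
    simp only [Finset.mul_sum]
    rw [Finset.sum_comm]
    refine Finset.sum_congr rfl fun l _ => ?_
    have h3 : (Mm * Nn ^ (m + 1)) i l = (Nn ^ m) i l := by
      rw [pow_succ', ← Matrix.mul_assoc, hMN, Matrix.one_mul]
    rw [← h3, Matrix.mul_apply, Finset.sum_mul]
    exact Finset.sum_congr rfl fun j _ => by ring
  rw [h1, h4.tsum_eq_zero_add]
  have h6 : ∑ j, (Nn ^ 0) i j * U j (S.sig^[0] x) = U i x := by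
    rw [pow_zero, Finset.sum_eq_single i]
    · rw [Matrix.one_apply_eq, one_mul]; rfl
    · intro j _ hj
      rw [Matrix.one_apply_ne (Ne.symm hj), zero_mul]
    · intro h; exact absurd (Finset.mem_univ _) h
  rw [h6, psi]
  have h7 : (fun m : ℕ => ∑ j, (Nn ^ (m + 1)) i j * U j (S.sig^[m + 1] x)) =
      fun m : ℕ => ∑ j, (Nn ^ (m + 1)) i j * U j (S.sig^[m] (S.sig x)) := by
    funext m
    simp only [Function.iterate_succ_apply]
  rw [h7]
  ring

end DSys

/-- geometric growth of a finite matrix -/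
theorem summable_geo {K C lam q : ℝ} (hl : 0 ≤ lam) (hq : 0 ≤ q) (h : lam * q < 1) :
    Summable fun k : ℕ => (K * lam ^ (k + 1)) * (C * q ^ k) := by
  have h1 : Summable fun k : ℕ => (lam * q) ^ k :=
    summable_geometric_of_lt_one (mul_nonneg hl hq) h
  refine (h1.mul_left (K * lam * C)).congr fun k => ?_
  rw [mul_pow, pow_succ]
  ring

/-- crude growth of the powers of a matrix -/
theorem pow_entry_le {ι : Type*} [Fintype ι] [DecidableEq ι] (Nn : Matrix ι ι ℂ) {m : ℝ}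
    (hm : ∀ i j, ‖Nn i j‖ ≤ m) (k : ℕ) (i j : ι) :
    ‖(Nn ^ k) i j‖ ≤ 1 * (max 1 (Fintype.card ι * m)) ^ k := by
  rw [one_mul]
  induction k generalizing i j with
  | zero =>
    rw [pow_zero, pow_zero, Matrix.one_apply]
    split <;> simp
  | succ k ih =>
    have hm0 : 0 ≤ m := (norm_nonneg _).trans (hm i j)
    rw [pow_succ, Matrix.mul_apply, pow_succ]
    have hT : (0:ℝ) ≤ max 1 (Fintype.card ι * m) := zero_le_one.trans (le_max_left _ _)
    have h1 : ∀ l ∈ (Finset.univ : Finset ι), ‖(Nn ^ k) i l * Nn l j‖ ≤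
        (max 1 (Fintype.card ι * m)) ^ k * m := fun l _ => by
      rw [norm_mul]
      exact mul_le_mul (ih i l) (hm l j) (norm_nonneg _) (pow_nonneg hT k)
    refine (norm_sum_le _ _).trans ((Finset.sum_le_sum h1).trans ?_)
    rw [Finset.sum_const, Finset.card_univ, nsmul_eq_mul]
    calc (Fintype.card ι : ℝ) * ((max 1 (Fintype.card ι * m)) ^ k * m) =
          (max 1 (Fintype.card ι * m)) ^ k * (Fintype.card ι * m) := by ring
      _ ≤ _ := mul_le_mul_of_nonneg_left (le_max_right _ _) (pow_nonneg hT k)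

/-- the inverse of the period matrix in the case of one base index -/
theorem one_base {b : ℤ} {nn : ℤ → ℤ → ℕ} {p : ℤ} (h : 1 ≤ nn (b + p) b) :
    (Matrix.of fun _ _ => ((nn (b + p) b : ℂ))⁻¹ : Matrix ({b} : Finset ℤ) ({b} : Finset ℤ) ℂ) *
      DSys.perM {b} nn p = 1 ∧ ∀ (k : ℕ) (c c' : ({b} : Finset ℤ)),
      ‖((Matrix.of fun _ _ => ((nn (b + p) b : ℂ))⁻¹ :
        Matrix ({b} : Finset ℤ) ({b} : Finset ℤ) ℂ) ^ k) c c'‖ ≤ 1 * 1 ^ k := by
  have hn0 : ((nn (b + p) b : ℕ) : ℂ) ≠ 0 := by exact_mod_cast (by omega : nn (b + p) b ≠ 0)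
  have huniv : (Finset.univ : Finset ({b} : Finset ℤ)) = {⟨b, Finset.mem_singleton_self b⟩} := by
    ext c
    simp only [Finset.mem_univ, Finset.mem_singleton, true_iff]
    exact Subtype.ext (Finset.mem_singleton.1 c.2)
  have heq : ∀ c c' : ({b} : Finset ℤ), c = c' := fun c c' =>
    Subtype.ext ((Finset.mem_singleton.1 c.2).trans (Finset.mem_singleton.1 c'.2).symm)
  constructor
  · ext c c'
    rw [Matrix.mul_apply, huniv, Finset.sum_singleton, Matrix.of_apply, DSys.perM, Matrix.of_apply,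
      heq c c', Matrix.one_apply_eq]
    have : (c' : ℤ) = b := Finset.mem_singleton.1 c'.2
    rw [this]
    exact inv_mul_cancel₀ hn0
  · intro k
    induction k with
    | zero =>
      intro c c'
      rw [heq c c', pow_zero, Matrix.one_apply_eq]; simp
    | succ k ih =>
      intro c c'
      rw [pow_succ, Matrix.mul_apply, huniv, Finset.sum_singleton, norm_mul, one_pow, mul_one,
        Matrix.of_apply, norm_inv, Complex.norm_natCast]
      have h1 := ih c ⟨b, Finset.mem_singleton_self b⟩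
      rw [one_pow, mul_one] at h1
      have h2 : ((nn (b + p) b : ℝ))⁻¹ ≤ 1 := inv_le_one_of_one_le₀ (by exact_mod_cast h)
      exact mul_le_one₀ h1 (by positivity) h2

section main

open FL XT H378 H181

variable {M : Type} [TopologicalSpace M] [ChartedSpace C2 M] [IsManifold 𝓘(ℂ, C2) ω M]

omit [IsManifold 𝓘(ℂ, C2) ω M] in
theorem f_iterate (D : XTData M) (k : ℕ) (x : M) : D.f ((D.sh (-1))^[k] x) = D.f x - k := by
  rw [iterate_sh, D.f_sh]
  push_cast
  ring

omit [IsManifold 𝓘(ℂ, C2) ω M] in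
theorem exp_iterate (D : XTData M) (ε : ℝ) (k : ℕ) (x : M) :
    Real.exp (ε * D.f ((D.sh (-1))^[k] x)) = Real.exp (ε * D.f x) * Real.exp (-ε) ^ k := by
  rw [f_iterate, ← Real.exp_nat_mul, ← Real.exp_add]
  congr 1
  ring

omit [IsManifold 𝓘(ℂ, C2) ω M] in
theorem n1_sum_le {D : XTData M} {α : Type*} (s : Finset α) (a : α → M → Fin 2 → ℂ) (x : M) :
    n1 D.h 0 (∑ i ∈ s, a i) x ≤ ∑ i ∈ s, n1 D.h 0 (a i) x := by
  classical
  induction s using Finset.induction_on with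
  | empty =>
    rw [Finset.sum_empty, Finset.sum_empty]
    exact (n1_zero (h := D.h) (V := ℂ) 0).le
  | insert i s hi ih =>
    rw [Finset.sum_insert hi, Finset.sum_insert hi]
    exact (n1_add_le (D.herm.posDef x) 0 (a i) (∑ i ∈ s, a i)).trans (add_le_add le_rfl ih)

omit [IsManifold 𝓘(ℂ, C2) ω M] in
theorem n1_const_smul {D : XTData M} (c : ℂ) (a : M → Fin 2 → ℂ) (x : M) :
    n1 D.h 0 (c • a) x = ‖c‖ * n1 D.h 0 a x :=
  n1_smul 0 (fun _ => c) a

/-- **The recursion theorem.** `Bs` = base indices, `I l` = predecessors of the other indices,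
`nn l b` = multiplicities; the matrix of one period has the inverse `Nn` with `|Nn^k| ≤ K lam^k`, and
everything decays faster than `lam^(-k)` under `sh (-k)`. -/
theorem frames (D : XTData M) {R : ℝ} {i : ℤ} {n : ℕ} {Bs : Finset ℤ} {I : ℤ → Finset ℤ}
    (hI : ∀ l, i < l → l ∉ Bs → I l ⊆ Finset.Ioo i l)
    (hne : ∀ l, i < l → l ∉ Bs → (I l).Nonempty) (hBs : ∀ b ∈ Bs, i < b)
    {A : ℤ → M → Fin 2 → ℂ} {g : ℤ → M → ℂ} (hcl : ∀ l, i < l → ClosedOn (inner D R) (A l))
    (hper : ∀ b ∈ Bs, ∀ x, A (b + n) x = A b (D.sh (-1) x))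
    (hg : ∀ l, i < l → l ∉ Bs → DbarOn (inner D R) (g l) (A l - ∑ j ∈ I l, A j))
    {nn : ℤ → ℤ → ℕ} (hnn0 : ∀ b ∈ Bs, ∀ c, nn b c = if b = c then 1 else 0)
    (hnn1 : ∀ l, i < l → l ∉ Bs → ∀ c, nn l c = ∑ j ∈ I l, nn j c)
    {Nn : Matrix Bs Bs ℂ} (hNn : Nn * DSys.perM Bs nn n = 1) {K lam N ε : ℝ} (hlam : 0 ≤ lam)
    (hK : ∀ k b c, ‖(Nn ^ k) b c‖ ≤ K * lam ^ k) (hN : lam * Real.exp (-N) < 1)
    (hε : lam * Real.exp (-ε) < 1) (hN0 : 0 ≤ N) (hε0 : 0 ≤ ε)
    (hA : ∀ b ∈ Bs, ∃ C, ∀ x ∈ inner D R, n1 D.h 0 (A b) x ≤ C * Real.exp (N * D.f x))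
    (hgb : ∀ l, i < l → l ∉ Bs → ∃ C, ∀ x ∈ inner D R, ‖g l x‖ ≤ C * Real.exp (ε * D.f x)) :
    ∃ ψ : ℤ → M → ℂ, (∀ l, i < l → DbarOn (inner D R) (ψ l) (A l)) ∧
      (∀ l, i < l → ∃ C, 0 ≤ C ∧ ∀ x ∈ inner D R, ‖ψ l x‖ ≤ C * Real.exp (ε * D.f x)) ∧
      (∀ l, i < l → l ∉ Bs → ψ l = ∑ j ∈ I l, ψ j + g l) ∧
      (∀ b ∈ Bs, ∀ x ∈ inner D R, ψ (b + n) x = ψ b (D.sh (-1) x)) ∧
      ∃ u : ℤ → M → ℂ, (∀ b ∈ Bs, u b = 0) ∧
        (∀ l, i < l → l ∉ Bs → u l = ∑ j ∈ I l, u j + g l) ∧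
        (∀ l, i < l → ψ l = ∑ b ∈ Bs, (nn l b : ℂ) • ψ b + u l) ∧
        ∀ l, i < l → ∀ x, ‖u l x‖ ≤ (∑ b ∈ Bs, nn l b : ℕ) * ∑ j ∈ Finset.Ioc i l, ‖g j x‖ := by
  classical
  -- only the values of `g` outside `Bs` matter
  set g' : ℤ → M → ℂ := fun l => if l ∈ Bs then 0 else g l with hg'
  have hg'1 : ∀ l, l ∉ Bs → g' l = g l := fun l hl => by rw [hg']; exact if_neg hl
  have hg'le : ∀ l x, ‖g' l x‖ ≤ ‖g l x‖ := by
    intro l x
    by_cases h : l ∈ Bs
    · rw [hg']; simp only [h, if_true, Pi.zero_apply, norm_zero]; exact norm_nonneg _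
    · rw [hg'1 l h]
  set S := sysD D R with hS
  -- the forms as elements of the module
  set Af : ℤ → ClF (inner D R) := fun l => if h : i < l then ⟨A l, hcl l h⟩ else 0 with hAf
  have hAf1 : ∀ l, i < l → (Af l).1 = A l := by
    intro l hl
    simp only [hAf, dif_pos hl]
  set af : ℤ → ClF (inner D R) := fun l => Af l - ∑ j ∈ I l, Af j with haf
  have haf1 : ∀ l, i < l → l ∉ Bs → (af l).1 = A l - ∑ j ∈ I l, A j := by
    intro l hl hB
    simp only [haf, Submodule.coe_sub, Submodule.coe_sum]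
    rw [hAf1 l hl]
    congr 1
    exact Finset.sum_congr rfl fun j hj => hAf1 j (Finset.mem_Ioo.1 (hI l hl hB hj)).1
  obtain ⟨nn', u, au, h1, h2, h3, h4, h5, h6, h7, h8⟩ := S.exists_rec (A := Af) (a := af)
    (g := g') hI hne
    (fun l hl hB => by
      rw [hS, sysD_D, haf1 l hl hB, hg'1 l hB]
      exact hg l hl hB)
    (fun l hl hB => by simp only [haf]; abel)
  have hnn : ∀ l, i < l → ∀ c, nn' l c = nn l c := by
    refine DSys.ind_above fun l hl ih => ?_
    intro c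
    by_cases hB : l ∈ Bs
    · rw [h3 l hB, hnn0 l hB]
    · rw [h5 l hl hB, hnn1 l hl hB]
      refine Finset.sum_congr rfl fun j hj => ?_
      have hj' := Finset.mem_Ioo.1 (hI l hl hB hj)
      exact ih j hj'.1 hj'.2 c
  have hpm : DSys.perM Bs nn' n = DSys.perM Bs nn n := by
    ext b c
    simp only [DSys.perM, Matrix.of_apply]
    rw [hnn _ (by have := hBs b.1 b.2; omega)]
  -- bounds for `u`
  have hub : ∀ l, i < l → ∃ C, 0 ≤ C ∧ ∀ x ∈ inner D R, ‖u l x‖ ≤ C * Real.exp (ε * D.f x) := by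
    intro l hl
    have hgb' : ∀ j : ℤ, ∃ C, 0 ≤ C ∧ ∀ x ∈ inner D R, i < j → ‖g' j x‖ ≤ C * Real.exp (ε * D.f x) := by
      intro j
      by_cases hj : i < j
      · by_cases hB : j ∈ Bs
        · refine ⟨0, le_rfl, fun x hx _ => ?_⟩
          rw [hg']; simp [hB]
        · obtain ⟨C, hC⟩ := hgb j hj hB
          refine ⟨|C|, abs_nonneg _, fun x hx _ => ?_⟩
          rw [hg'1 j hB]
          exact (hC x hx).trans (mul_le_mul_of_nonneg_right (le_abs_self _) (Real.exp_pos _).le)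
      · exact ⟨0, le_rfl, fun x hx h => absurd h hj⟩
    choose C hC0 hC using hgb'
    refine ⟨(∑ b ∈ Bs, nn' l b : ℕ) * ∑ j ∈ Finset.Ioc i l, C j, ?_, fun x hx => ?_⟩
    · exact mul_nonneg (Nat.cast_nonneg _) (Finset.sum_nonneg fun j _ => hC0 j)
    · refine (h8 l hl x).trans ?_
      rw [mul_assoc, Finset.sum_mul]
      refine mul_le_mul_of_nonneg_left ?_ (Nat.cast_nonneg _)
      exact Finset.sum_le_sum fun j hj => hC j x hx (Finset.mem_Ioc.1 hj).1
  -- one constant for all base indices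
  have hub2 : ∃ C, 0 ≤ C ∧ ∀ b ∈ Bs, ∀ x ∈ inner D R, ‖u (b + n) x‖ ≤ C * Real.exp (ε * D.f x) := by
    have : ∀ b : ℤ, ∃ C, 0 ≤ C ∧ (b ∈ Bs → ∀ x ∈ inner D R, ‖u (b + n) x‖ ≤ C * Real.exp (ε * D.f x)) := by
      intro b
      by_cases hb : b ∈ Bs
      · obtain ⟨C, hC0, hC⟩ := hub (b + n) (by have := hBs b hb; omega)
        exact ⟨C, hC0, fun _ => hC⟩
      · exact ⟨0, le_rfl, fun h => absurd h hb⟩
    choose C hC0 hC using this
    refine ⟨∑ b ∈ Bs, C b, Finset.sum_nonneg fun b _ => hC0 b, fun b hb x hx => ?_⟩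
    refine (hC b hb x hx).trans (mul_le_mul_of_nonneg_right ?_ (Real.exp_pos _).le)
    exact Finset.single_le_sum (fun b _ => hC0 b) hb
  obtain ⟨Cu, hCu0, hCu⟩ := hub2
  have hit : ∀ (k : ℕ) {x : M}, x ∈ inner D R → (D.sh (-1))^[k] x ∈ inner D R := by
    intro k x hx
    rw [mem_inner, f_iterate]
    have h : D.f x < R := hx
    have : (0 : ℝ) ≤ k := Nat.cast_nonneg k
    linarith
  -- pointwise bounds along orbits
  have hBx : ∀ x ∈ inner D R, ∀ (b : Bs) (k : ℕ), ‖u (b.1 + n) (S.sig^[k] x)‖ ≤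
      (Cu * Real.exp (ε * D.f x)) * Real.exp (-ε) ^ k := by
    intro x hx b k
    have := hCu b.1 b.2 _ (hit k hx)
    rw [exp_iterate, ← mul_assoc] at this
    exact this
  have hR' : ∀ k (b c : Bs), ‖(Nn ^ (k + 1)) b c‖ ≤ K * lam ^ (k + 1) := fun k b c => hK (k + 1) b c
  have hsx : ∀ x, Summable fun k : ℕ => (K * lam ^ (k + 1)) *
      ((Cu * Real.exp (ε * D.f x)) * Real.exp (-ε) ^ k) := fun x =>
    summable_geo hlam (Real.exp_pos _).le hε
  by_cases hKneg : Bs = ∅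
  · -- no base index: everything is `∂̄(u l)`
    subst hKneg
    refine ⟨u, fun l hl => ?_, hub, fun l hl hB => ?_, fun b hb => absurd hb (Finset.notMem_empty b),
      u, fun b hb => absurd hb (Finset.notMem_empty b), fun l hl hB => ?_, fun l hl => ?_, ?_⟩
    · have h := h1 l hl
      have h' : Af l = au l := by rw [h2 l hl]; simp
      rw [hS, sysD_D, ← h', hAf1 l hl] at h
      exact h
    · rw [h6 l hl hB, hg'1 l hB]
    · rw [h6 l hl hB, hg'1 l hB]
    · simp
    · intro l hl x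
      refine (h8 l hl x).trans ?_
      rw [Finset.sum_congr rfl fun b _ => hnn l hl b]
      refine mul_le_mul_of_nonneg_left ?_ (Nat.cast_nonneg _)
      exact Finset.sum_le_sum fun j _ => hg'le j x
  obtain ⟨b0, hb0⟩ := Finset.nonempty_iff_ne_empty.2 hKneg
  have hKnn : 0 ≤ K := by
    have := (norm_nonneg _).trans (hK 0 ⟨b0, hb0⟩ ⟨b0, hb0⟩)
    simpa using this
  have hfe : ∀ x ∈ inner D R, Real.exp (ε * D.f x) ≤ Real.exp (ε * R) := fun x hx =>
    Real.exp_le_exp.2 (mul_le_mul_of_nonneg_left (le_of_lt hx) hε0)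
  have hfN : ∀ x ∈ inner D R, Real.exp (N * D.f x) ≤ Real.exp (N * R) := fun x hx =>
    Real.exp_le_exp.2 (mul_le_mul_of_nonneg_left (le_of_lt hx) hN0)
  have hA2 : ∃ C, 0 ≤ C ∧ ∀ b ∈ Bs, ∀ x ∈ inner D R, n1 D.h 0 (A b) x ≤ C * Real.exp (N * D.f x) := by
    have : ∀ b : ℤ, ∃ C, 0 ≤ C ∧ (b ∈ Bs → ∀ x ∈ inner D R,
        n1 D.h 0 (A b) x ≤ C * Real.exp (N * D.f x)) := by
      intro b
      by_cases hb : b ∈ Bs
      · obtain ⟨C, hC⟩ := hA b hb
        exact ⟨|C|, abs_nonneg _, fun _ x hx => (hC x hx).trans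
          (mul_le_mul_of_nonneg_right (le_abs_self _) (Real.exp_pos _).le)⟩
      · exact ⟨0, le_rfl, fun h => absurd h hb⟩
    choose C hC0 hC using this
    refine ⟨∑ b ∈ Bs, C b, Finset.sum_nonneg fun b _ => hC0 b, fun b hb x hx => ?_⟩
    refine (hC b hb x hx).trans (mul_le_mul_of_nonneg_right ?_ (Real.exp_pos _).le)
    exact Finset.single_le_sum (fun b _ => hC0 b) hb
  obtain ⟨CA, hCA0, hCA⟩ := hA2
  have hsm : ∀ b : Bs, S.Small (fun k => ∑ c : Bs, (Nn ^ k) b c • (S.pull ^ k) (Af c)) := by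
    intro b η hη
    have ht : Tendsto (fun k : ℕ => (Fintype.card Bs * (K * (CA * Real.exp (N * R)))) *
        (lam * Real.exp (-N)) ^ k) atTop (𝓝 0) := by
      have := (tendsto_pow_atTop_nhds_zero_of_lt_one (mul_nonneg hlam (Real.exp_pos _).le) hN).const_mul
        (Fintype.card Bs * (K * (CA * Real.exp (N * R))))
      simpa using this
    filter_upwards [ht.eventually (Iic_mem_nhds hη)] with k hk
    intro y hy
    refine le_trans ?_ hk
    have e1 : ((∑ c : Bs, (Nn ^ k) b c • (S.pull ^ k) (Af c) : ClF (inner D R)).1) =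
        ∑ c : Bs, (Nn ^ k) b c • fun x => A c (D.sh (-k) x) := by
      rw [Submodule.coe_sum]
      refine Finset.sum_congr rfl fun c _ => ?_
      rw [Submodule.coe_smul, hS, sysD_pull_pow, hAf1 c.1 (hBs c.1 c.2)]
    rw [e1]
    refine (n1_sum_le Finset.univ _ y).trans ?_
    have e2 : ∀ c ∈ (Finset.univ : Finset Bs), n1 D.h 0 ((Nn ^ k) b c • fun x => A c (D.sh (-k) x)) y ≤
        (K * lam ^ k) * ((CA * Real.exp (N * R)) * Real.exp (-N) ^ k) := by
      intro c _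
      rw [n1_const_smul, D.n1_comp_sh]
      have h9 : D.sh (-k) y = (D.sh (-1))^[k] y := (iterate_sh D k y).symm
      refine mul_le_mul (hK k b c) ?_ (n1_nonneg (D.herm.posDef _) _ _)
        (mul_nonneg hKnn (pow_nonneg hlam k))
      rw [h9]
      refine (hCA c.1 c.2 _ (hit k hy)).trans ?_
      rw [exp_iterate, ← mul_assoc]
      exact mul_le_mul_of_nonneg_right (mul_le_mul_of_nonneg_left (hfN y hy) hCA0)
        (pow_nonneg (Real.exp_pos _).le _)
    refine (Finset.sum_le_sum e2).trans (le_of_eq ?_)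
    rw [Finset.sum_const, Finset.card_univ, nsmul_eq_mul, mul_pow]
    ring
  have hmain := S.main (A := Af) (nn := nn') (u := u) (au := au) h1 h2 hBs (p := n) (by positivity)
    (fun b hb => by
      apply Subtype.ext
      rw [hS, sysD_pull, hAf1 b (hBs b hb), hAf1 (b + n) (by have := hBs b hb; omega)]
      funext x
      exact (hper b hb x).symm)
    (Nn := Nn) (by rw [hpm]; exact hNn) (R := fun k => K * lam ^ (k + 1))
    (B := fun k => (Cu * Real.exp (ε * R)) * Real.exp (-ε) ^ k) hR'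
    (fun x hx b hb k => (hBx x hx ⟨b, hb⟩ k).trans
      (mul_le_mul_of_nonneg_right (mul_le_mul_of_nonneg_left (hfe x hx) hCu0)
        (pow_nonneg (Real.exp_pos _).le _)))
    (summable_geo hlam (Real.exp_pos _).le hε) hsm
  set ψ : ℤ → M → ℂ := fun l => S.prim Nn nn' u n l with hψ
  set ψb : Bs → M → ℂ := fun b => S.psi Nn (fun b : Bs => u (b.1 + n)) b with hψb
  have hψl : ∀ l, ψ l = ∑ b : Bs, (nn' l b.1 : ℂ) • ψb b + u l := by
    intro l
    funext x
    simp only [hψ, hψb]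
    rw [S.prim_apply, Pi.add_apply, Finset.sum_apply]
    rfl
  have hψB : ∀ b : Bs, ψ b.1 = ψb b := by
    intro b
    rw [hψl, h4 b.1 b.2, add_zero, Finset.sum_eq_single b]
    · rw [h3 b.1 b.2, if_pos rfl, Nat.cast_one, one_smul]
    · intro c _ hc
      rw [h3 b.1 b.2, if_neg (fun h => hc (Subtype.ext h.symm)), Nat.cast_zero, zero_smul]
    · intro h; exact absurd (Finset.mem_univ _) h
  have hψbd : ∀ b : Bs, ∀ x ∈ inner D R, ‖ψb b x‖ ≤ (Fintype.card Bs * (∑' k : ℕ, (K * lam ^ (k + 1)) *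
      (Cu * Real.exp (-ε) ^ k))) * Real.exp (ε * D.f x) := by
    intro b x hx
    refine (S.norm_psi_le hR' (fun b k => hBx x hx b k) (hsx x) b).trans (le_of_eq ?_)
    rw [mul_assoc, ← tsum_mul_right]
    congr 1
    refine tsum_congr fun k => ?_
    ring
  refine ⟨ψ, fun l hl => ?_, fun l hl => ?_, fun l hl hB => ?_, fun b hb x hx => ?_, u, h4,
    fun l hl hB => ?_, fun l hl => ?_, ?_⟩
  · have := hmain l hl
    rw [hS, sysD_D, hAf1 l hl] at this
    exact this
  · obtain ⟨C, hC0, hC⟩ := hub l hl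
    set T := (Fintype.card Bs * (∑' k : ℕ, (K * lam ^ (k + 1)) * (Cu * Real.exp (-ε) ^ k))) with hT
    refine ⟨(∑ b : Bs, (nn' l b.1 : ℝ)) * |T| + C, by positivity, fun x hx => ?_⟩
    rw [hψl]
    have h10 : ‖(∑ b : Bs, (nn' l b.1 : ℂ) • ψb b + u l) x‖ ≤
        ∑ b : Bs, (nn' l b.1 : ℝ) * ‖ψb b x‖ + ‖u l x‖ := by
      rw [Pi.add_apply, Finset.sum_apply]
      refine (norm_add_le _ _).trans (add_le_add ((norm_sum_le _ _).trans ?_) le_rfl)
      refine Finset.sum_le_sum fun b _ => ?_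
      rw [Pi.smul_apply, norm_smul, Complex.norm_natCast]
    refine h10.trans ?_
    rw [add_mul, mul_assoc, Finset.sum_mul]
    refine add_le_add (Finset.sum_le_sum fun b _ => ?_) (hC x hx)
    refine mul_le_mul_of_nonneg_left ?_ (Nat.cast_nonneg _)
    exact (hψbd b x hx).trans (mul_le_mul_of_nonneg_right (le_abs_self _) (Real.exp_pos _).le)
  · have e1 : ∀ j ∈ I l, ψ j = ∑ b : Bs, (nn' j b.1 : ℂ) • ψb b + u j := fun j _ => hψl j
    rw [hψl, h6 l hl hB, Finset.sum_congr rfl e1, Finset.sum_add_distrib, Finset.sum_comm,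
      hg'1 l hB, add_assoc]
    congr 1
    refine Finset.sum_congr rfl fun b _ => ?_
    rw [h5 l hl hB, Nat.cast_sum, Finset.sum_smul]
  · have e1 : ψ b (D.sh (-1) x) = ψb ⟨b, hb⟩ (S.sig x) := by rw [hψB ⟨b, hb⟩]; rfl
    rw [e1, hψb]
    simp only
    rw [S.psi_sig (Mm := DSys.perM Bs nn' n) (by rw [hpm]; exact hNn) hR'
      (fun b k => hBx x hx b k) (hsx x), hψl, Pi.add_apply, Finset.sum_apply]
    rfl
  · rw [h6 l hl hB, hg'1 l hB]
  · rw [hψl, ← Finset.sum_coe_sort Bs fun b => (nn l b : ℂ) • ψ b]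
    congr 1
    refine Finset.sum_congr rfl fun b _ => ?_
    rw [hψB b, hnn l hl]
  · intro l hl x
    refine (h8 l hl x).trans ?_
    rw [Finset.sum_congr rfl fun b _ => hnn l hl b]
    refine mul_le_mul_of_nonneg_left ?_ (Nat.cast_nonneg _)
    exact Finset.sum_le_sum fun j _ => hg'le j x

end main

end Vale.Agent.P267.H585
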