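import Vale.Agent.P267.H378.NFthm
import Vale.Agent.P267.H399.Calc3
import Vale.Agent.P267.H585.Rec

/-!
# P267, GX-FRAME (helper585): the `∂̄`-system of the infinite cyclic covering

* `closed_aux` : `∂̄` is closed with respect to uniform convergence of functions and locally uniform
  convergence of forms.
* `ClF W` : the closed smooth `(0,1)`-forms on an open set.
* `sysD D R` : the `∂̄`-system (`Rec.lean`) of `W = {f < R}`, `sig = γ⁻¹`.
-/

set_option linter.unusedVariables false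

open scoped Manifold ContDiff ComplexConjugate Matrix Topology
open Set Filter Metric

noncomputable section

namespace Vale.Agent.P267.H585

open FL XT H378 H181

variable {M : Type} [TopologicalSpace M] [ChartedSpace C2 M]

/-- `u` is smooth on `W` and `∂̄u = a` there -/
def DbarOn (W : Set M) (u : M → ℂ) (a : M → Fin 2 → ℂ) : Prop :=
  ∀ x ∈ W, At0 ∞ 0 u x ∧ ∀ i, dbar0 0 u x i = a x i

/-- `a` is smooth and `∂̄`-closed on `W` -/
def ClosedOn (W : Set M) (a : M → Fin 2 → ℂ) : Prop :=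
  ∀ x ∈ W, At1 ∞ 0 a x ∧ dbar1 0 a x = 0

section algebra

theorem DbarOn.add {W : Set M} {u v : M → ℂ} {a b : M → Fin 2 → ℂ} (h : DbarOn W u a)
    (h' : DbarOn W v b) : DbarOn W (u + v) (a + b) := by
  intro x hx
  refine ⟨(h x hx).1.add (h' x hx).1, fun i => ?_⟩
  have := dbar0_add ((h x hx).1.of_le (m := 1) (by simp)) ((h' x hx).1.of_le (m := 1) (by simp))
  have h2 := congrFun this i
  refine h2.trans ?_
  simp only [Pi.add_apply]
  rw [(h x hx).2, (h' x hx).2]

theorem DbarOn.smul {W : Set M} (c : ℂ) {u : M → ℂ} {a : M → Fin 2 → ℂ} (h : DbarOn W u a) :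
    DbarOn W (c • u) (c • a) := by
  intro x hx
  refine ⟨(h x hx).1.const_smul c, fun i => ?_⟩
  have := dbar0_const_smul c ((h x hx).1.of_le (m := 1) (by simp)) i
  refine this.trans ?_
  rw [(h x hx).2]
  rfl

theorem DbarOn.zero {W : Set M} : DbarOn W (0 : M → ℂ) 0 := by
  intro x hx
  refine ⟨at0_zero, fun i => ?_⟩
  have : dbar0 0 (fun _ : M => (0 : ℂ)) x = 0 := dbar0_zero
  exact congrFun this i

theorem DbarOn.neg {W : Set M} {u : M → ℂ} {a : M → Fin 2 → ℂ} (h : DbarOn W u a) :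
    DbarOn W (-u) (-a) := by
  have := h.smul (-1)
  rwa [neg_smul, one_smul, neg_smul, one_smul] at this

theorem DbarOn.sub {W : Set M} {u v : M → ℂ} {a b : M → Fin 2 → ℂ} (h : DbarOn W u a)
    (h' : DbarOn W v b) : DbarOn W (u - v) (a - b) := by
  rw [sub_eq_add_neg, sub_eq_add_neg]
  exact h.add h'.neg

theorem DbarOn.mono {W W' : Set M} (hW : W' ⊆ W) {u : M → ℂ} {a : M → Fin 2 → ℂ}
    (h : DbarOn W u a) : DbarOn W' u a := fun x hx => h x (hW hx)

theorem DbarOn.congr_right {W : Set M} {u : M → ℂ} {a b : M → Fin 2 → ℂ}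
    (h : DbarOn W u a) (hab : ∀ x ∈ W, a x = b x) : DbarOn W u b :=
  fun x hx => ⟨(h x hx).1, fun i => by rw [(h x hx).2, hab x hx]⟩

theorem DbarOn.congr_left {W : Set M} (hW : IsOpen W) {u v : M → ℂ} {a : M → Fin 2 → ℂ}
    (h : DbarOn W u a) (huv : ∀ x ∈ W, u x = v x) : DbarOn W v a := by
  intro x hx
  have hev : v =ᶠ[𝓝 x] u := by
    filter_upwards [hW.mem_nhds hx] with y hy
    exact (huv y hy).symm
  refine ⟨(h x hx).1.congr hev, fun i => ?_⟩
  rw [dbar0_congr hev]
  exact (h x hx).2 i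

/-- the closed smooth forms on `W` -/
def ClF (W : Set M) : Submodule ℂ (M → Fin 2 → ℂ) where
  carrier := {a | ClosedOn W a}
  zero_mem' := fun x _ => ⟨at1_zero, dbar1_zero⟩
  add_mem' := by
    intro a b ha hb x hx
    refine ⟨(ha x hx).1.add (hb x hx).1, ?_⟩
    have := dbar1_add ((ha x hx).1.of_le (m := 1) (by simp)) ((hb x hx).1.of_le (m := 1) (by simp))
    refine this.trans ?_
    rw [(ha x hx).2, (hb x hx).2, add_zero]
  smul_mem' := by
    intro c a ha x hx
    refine ⟨(ha x hx).1.const_smul c, ?_⟩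
    have := dbar1_const_smul c ((ha x hx).1.of_le (m := 1) (by simp))
    refine this.trans ?_
    rw [(ha x hx).2, smul_zero]

theorem mem_ClF {W : Set M} {a : M → Fin 2 → ℂ} : a ∈ ClF W ↔ ClosedOn W a := Iff.rfl

end algebra

section closed

variable [IsManifold 𝓘(ℂ, C2) ω M]

/-- **Closedness of `∂̄`.** -/
theorem closed_aux (D : XTData M) {W : Set M} (hW : IsOpen W) {u : ℕ → M → ℂ} {v : M → ℂ}
    {b : ℕ → M → Fin 2 → ℂ} {a : M → Fin 2 → ℂ} (hu : ∀ k, DbarOn W (u k) (b k))
    (ha : ClosedOn W a) (hlim : TendstoUniformlyOn u v atTop W)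
    (hsm : ∀ x ∈ W, ∃ N ∈ 𝓝 x, ∀ ε > 0, ∀ᶠ k in atTop, ∀ y ∈ N,
      n1 D.h 0 (a - b k) y ≤ ε) : DbarOn W v a := by
  intro x hx
  set e := chartAt C2 x with hed
  have he : e ∈ atlas C2 M := chart_mem_atlas C2 x
  have hxs : x ∈ e.source := mem_chart_source C2 x
  obtain ⟨N, hN, hNs⟩ := hsm x hx
  have hcl : ∀ᶠ y in 𝓝 x, At1 ∞ 0 a y ∧ dbar1 0 a y = 0 := by
    filter_upwards [hW.mem_nhds hx] with y hy using ha y hy
  obtain ⟨R, hR, hRt, φ, hφ, hpot⟩ := exists_local_potential he hxs hcl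
  have hWN : ∀ᶠ y in 𝓝 x, y ∈ W ∧ y ∈ N := by
    filter_upwards [hW.mem_nhds hx, hN] with y h1 h2 using ⟨h1, h2⟩
  obtain ⟨R', hR', -, hRp⟩ := exists_ball hxs ((tendsto_symm_nhds hxs).eventually hWN)
  set r := min R R' / 2 with hr
  have hr0 : 0 < r := by have := lt_min hR hR'; positivity
  have hrR : closedBall (e x) r ⊆ ball (e x) R :=
    closedBall_subset_ball (by have := min_le_left R R'; linarith)
  have hrR' : closedBall (e x) r ⊆ ball (e x) R' :=
    closedBall_subset_ball (by have := min_le_right R R'; linarith)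
  have hbt : closedBall (e x) r ⊆ e.target := hrR.trans hRt
  obtain ⟨C, hC, hcmp⟩ := n1_compare D.herm he hbt (isCompact_closedBall _ _) 0
  set B := ball (e x) r with hB
  have hBc : B ⊆ closedBall (e x) r := ball_subset_closedBall
  have hAt : ∀ k, ∀ z ∈ B, ContDiffAt ℝ ∞ (fun z => u k (e.symm z)) z := by
    intro k z hz
    have hzt := hbt (hBc hz)
    have h1 := (hu k _ (hRp z (hrR' (hBc hz))).1).1.chart he (e.map_target hzt)
    rw [e.right_inv hzt, LB.loc0_zero] at h1
    exact h1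
  have hdz : ∀ k, ∀ z ∈ B, ∀ i, dzb i (fun z => u k (e.symm z) - φ z) z =
      -(loc1 0 e (a - b k) z i) := by
    intro k z hz i
    have hzt := hbt (hBc hz)
    have h0 := ((hAt k z hz).differentiableAt (by simp))
    rw [dzb_sub h0 (hφ.differentiable (by simp) z), hpot z (hrR (hBc hz)) i]
    have h1 : dzb i (fun z => u k (e.symm z)) z = loc1 0 e (dbar0 0 (u k)) z i := by
      have h2 : DifferentiableAt ℝ (loc0 0 e (u k)) z := by
        rw [LB.loc0_zero]; exact h0
      rw [loc1_dbar0 he hzt h2, LB.loc0_zero]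
      rfl
    rw [h1]
    have h3 : dbar0 0 (u k) (e.symm z) = b k (e.symm z) := by
      funext j
      exact (hu k _ (hRp z (hrR' (hBc hz))).1).2 j
    simp only [loc1, h3, zpow_zero, Pi.sub_apply, smul_eq_mul, mul_sub,
      Finset.sum_sub_distrib]
    ring
  have hhol : DifferentiableOn ℂ (fun z => v (e.symm z) - φ z) B := by
    refine limit_open (l := atTop) isOpen_ball (u := fun k z => u k (e.symm z) - φ z)
      (Eventually.of_forall fun k => ?_) ?_ ?_
    · intro z hz
      refine ContDiffAt.contDiffWithinAt ?_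
      exact ((hAt k z hz).sub hφ.contDiffAt).of_le (by simp)
    · rw [Metric.tendstoUniformlyOn_iff] at hlim ⊢
      intro ε hε
      filter_upwards [hlim ε hε] with k hk z hz
      have := hk (e.symm z) (hRp z (hrR' (hBc hz))).1
      rwa [dist_eq_norm, sub_sub_sub_cancel_right, ← dist_eq_norm]
    · intro ε hε
      filter_upwards [hNs (ε / (4 * C)) (by positivity)] with k hk z hz w
      have hzc := hBc hz
      have h1 : ∀ i, ‖dzb i (fun z => u k (e.symm z) - φ z) z‖ ≤ ε / 4 := by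
        intro i
        rw [hdz k z hz i, norm_neg]
        refine (norm_le_pi_norm _ i).trans ?_
        refine ((hcmp z hzc (a - b k)).1).trans ?_
        have h2 := hk (e.symm z) (hRp z (hrR' hzc)).2
        calc C * n1 D.h 0 (a - b k) (e.symm z) ≤ C * (ε / (4 * C)) := by gcongr
          _ = ε / 4 := by field_simp
      refine (norm_dbv_le h1 w).trans (le_of_eq ?_)
      ring
  have hxB : e x ∈ B := mem_ball_self hr0
  have han : AnalyticAt ℂ (fun z => v (e.symm z) - φ z) (e x) :=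
    P281.MF.analyticAt_of_differentiableOn isOpen_ball hhol hxB
  have hveq : (fun z => v (e.symm z)) = fun z => (v (e.symm z) - φ z) + φ z := by
    funext z; ring
  have hc1 : ContDiffAt ℝ ∞ (fun z => v (e.symm z) - φ z) (e x) :=
    (han.contDiffAt (n := ∞)).restrict_scalars ℝ
  have hc2 : ContDiffAt ℝ ∞ (fun z => v (e.symm z)) (e x) := by
    rw [hveq]; exact hc1.add hφ.contDiffAt
  refine ⟨?_, fun i => ?_⟩
  · rw [At0, ← hed, LB.loc0_zero]
    exact hc2
  · rw [dbar0, ← hed, LB.loc0_zero]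
    change dzb i (fun z => v (e.symm z)) (e x) = _
    rw [hveq, dzb_add (hc1.differentiableAt (by simp)) (hφ.differentiable (by simp) _),
      dzb_of_hol han.differentiableAt, zero_add, hpot _ (hrR (hBc hxB)) i, hed, loc1_chartAt]

end closed

/-! ### the system -/

section system

variable (D : XTData M)

/-- the inner region `f < R` -/
def inner (R : ℝ) : Set M := {x | D.f x < R}

theorem mem_inner {R : ℝ} {x : M} : x ∈ inner D R ↔ D.f x < R := Iff.rfl

theorem inner_mono {R R' : ℝ} (h : R ≤ R') : inner D R ⊆ inner D R' := fun x hx => lt_of_lt_of_le hx h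

theorem sh_neg_inner {R : ℝ} (k : ℕ) {x : M} (hx : x ∈ inner D R) : D.sh (-k) x ∈ inner D R := by
  rw [mem_inner, D.f_sh] at *
  push_cast
  have : (0 : ℝ) ≤ k := Nat.cast_nonneg k
  linarith

theorem iterate_sh (k : ℕ) (x : M) : (D.sh (-1))^[k] x = D.sh (-k) x := by
  induction k with
  | zero => simp
  | succ k ih =>
    rw [Function.iterate_succ', Function.comp_apply, ih, ← D.sh_add]
    congr 1
    push_cast
    ring

variable [IsManifold 𝓘(ℂ, C2) ω M]

omit [IsManifold 𝓘(ℂ, C2) ω M] in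
theorem at0_sh {V : Type*} [NormedAddCommGroup V] [NormedSpace ℂ V] {κ : ℤ} {n : WithTop ℕ∞}
    (k : ℤ) {s : M → V} {x : M} (h : At0 n κ s (D.sh k x)) : At0 n κ (fun y => s (D.sh k y)) x := by
  rw [At0, (D.chartMap_sh k).apply_eq] at h
  exact h.congr_of_eventuallyEq ((D.chartMap_sh k).loc0_germ κ s x).symm

omit [IsManifold 𝓘(ℂ, C2) ω M] in
theorem at1_sh {V : Type*} [NormedAddCommGroup V] [NormedSpace ℂ V] {κ : ℤ} {n : WithTop ℕ∞}
    (k : ℤ) {s : M → Fin 2 → V} {x : M} (h : At1 n κ s (D.sh k x)) :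
    At1 n κ (fun y => s (D.sh k y)) x := by
  rw [At1, (D.chartMap_sh k).apply_eq] at h
  exact h.congr_of_eventuallyEq ((D.chartMap_sh k).loc1_germ κ s x).symm

omit [IsManifold 𝓘(ℂ, C2) ω M] in
theorem DbarOn.sh {W W' : Set M} {u : M → ℂ} {a : M → Fin 2 → ℂ} (h : DbarOn W u a) (k : ℤ)
    (hW : ∀ x ∈ W', D.sh k x ∈ W) : DbarOn W' (fun x => u (D.sh k x)) (fun x => a (D.sh k x)) := by
  intro x hx
  refine ⟨at0_sh D k (h _ (hW x hx)).1, fun i => ?_⟩
  rw [(D.chartMap_sh k).dbar0_comp]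
  exact (h _ (hW x hx)).2 i

omit [IsManifold 𝓘(ℂ, C2) ω M] in
theorem ClosedOn.sh {W W' : Set M} {a : M → Fin 2 → ℂ} (h : ClosedOn W a) (k : ℤ)
    (hW : ∀ x ∈ W', D.sh k x ∈ W) : ClosedOn W' (fun x => a (D.sh k x)) := by
  intro x hx
  refine ⟨at1_sh D k (h _ (hW x hx)).1, ?_⟩
  rw [(D.chartMap_sh k).dbar1_comp]
  exact (h _ (hW x hx)).2

omit [IsManifold 𝓘(ℂ, C2) ω M] in
theorem isOpen_inner (R : ℝ) : IsOpen (inner D R) :=
  isOpen_lt (H378.continuous_f (D := D)) continuous_const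

/-- **The `∂̄`-system of the inner region.** -/
def sysD (R : ℝ) : DSys M (ClF (inner D R)) where
  W := inner D R
  sig := D.sh (-1)
  sig_W := fun x hx => by simpa using sh_neg_inner D 1 hx
  D u a := DbarOn (inner D R) u a
  D_zero := DbarOn.zero
  D_add h h' := h.add h'
  D_smul c {u a} h := DbarOn.smul c h
  pull :=
    { toFun := fun a => ⟨fun x => a.1 (D.sh (-1) x), ClosedOn.sh D a.2 (-1)
        fun x hx => by simpa using sh_neg_inner D 1 hx⟩
      map_add' := fun a b => rfl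
      map_smul' := fun c a => rfl }
  D_pull h := DbarOn.sh D h (-1) fun x hx => by simpa using sh_neg_inner D 1 hx
  Small h := ∀ ε > 0, ∀ᶠ k in atTop, ∀ y ∈ inner D R, n1 D.h 0 (h k).1 y ≤ ε
  closed u v b a hu hlim hsm := by
    refine closed_aux D (isOpen_inner D R) hu a.2 hlim fun x hx =>
      ⟨inner D R, (isOpen_inner D R).mem_nhds hx, hsm⟩

@[simp] theorem sysD_sig (R : ℝ) : (sysD D R).sig = D.sh (-1) := rfl

@[simp] theorem sysD_W (R : ℝ) : (sysD D R).W = inner D R := rfl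

theorem sysD_D {R : ℝ} {u : M → ℂ} {a : ClF (inner D R)} :
    (sysD D R).D u a ↔ DbarOn (inner D R) u a := Iff.rfl

theorem sysD_pull {R : ℝ} (a : ClF (inner D R)) :
    ((sysD D R).pull a).1 = fun x => a.1 (D.sh (-1) x) := rfl

theorem sysD_pull_pow {R : ℝ} (k : ℕ) (a : ClF (inner D R)) :
    (((sysD D R).pull ^ k) a).1 = fun x => a.1 (D.sh (-k) x) := by
  induction k with
  | zero => simp
  | succ k ih =>
    rw [pow_succ', Module.End.mul_apply, sysD_pull, ih]
    funext x
    change a.1 (D.sh (-k) (D.sh (-1) x)) = _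
    rw [← D.sh_add]
    have : (-(k : ℤ) + -1) = -((k + 1 : ℕ) : ℤ) := by push_cast; ring
    rw [this]

end system

end Vale.Agent.P267.H585
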